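import Vale.Agent.P299.H800.IX.Int
import Vale.Agent.P299.H598.IX.Sec

/-!
# Torus actions on bundles, pull back of sections
-/

open scoped Manifold ContDiff ComplexOrder Topology Matrix ComplexConjugate
open MeasureTheory Set Filter
open Vale.Agent.P272.K Vale.Agent.P272.K.INT Vale.Agent.P299.D Vale.Agent.P299.IX

set_option linter.unusedSectionVars false

noncomputable section

namespace Vale.Agent.P299.H800.IX

variable {r n : ℕ} {Z : Type} [TopologicalSpace Z] [ChartedSpace (Cm n) Z]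
  {w : FormM n Z} {κ : Type*} [Fintype κ] [DecidableEq κ]

/-- The homeomorphism `a_t`. -/
def homeo (T : TorusAct r n Z w) (t : Fin r → ℝ) : Z ≃ₜ Z where
  toFun := T.a t
  invFun := T.a (-t)
  left_inv x := by rw [← T.add, neg_add_cancel, T.zero]
  right_inv x := by rw [← T.add, add_neg_cancel, T.zero]
  continuous_toFun := T.cont.comp (continuous_const.prodMk continuous_id)
  continuous_invFun := T.cont.comp (continuous_const.prodMk continuous_id)

/-- A lift of the torus action to the bundle `B`, by isometries of `B`: matrices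
`ac t e e' x` describing the pull back from `a_t x` (chart `e'`) to `x` (chart `e`). -/
structure Eqv (T : TorusAct r n Z w) (B : Bun n Z κ) where
  ac : (Fin r → ℝ) → Chart n Z → Chart n Z → Z → Matrix κ κ ℂ
  left : ∀ t e₁ e e' x, At e₁ x → At e x → At e' (T.a t x) →
    B.tr e₁ e x * ac t e e' x = ac t e₁ e' x
  right : ∀ t e e' e'' x, At e x → At e' (T.a t x) → At e'' (T.a t x) →
    ac t e e' x * B.tr e' e'' (T.a t x) = ac t e e'' x
  zero : ∀ e x, At e x → ac 0 e e x = 1
  add : ∀ s t e e' e'' x, At e x → At e' (T.a s x) → At e'' (T.a t (T.a s x)) →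
    ac s e e' x * ac t e' e'' (T.a s x) = ac (s + t) e e'' x
  per : ∀ (k : Fin r → ℤ) e x, At e x → ac (fun i => (k i : ℝ)) e e x = 1
  smooth : ∀ t e e' x, At e x → At e' (T.a t x) → ∀ i j,
    ContDiffAt ℝ ∞ (fun q : (Fin r → ℝ) × Cm n => ac q.1 e e' (e.symm q.2) i j) (t, e x)
  isom : ∀ t e e' x, At e x → At e' (T.a t x) →
    (ac t e e' x)ᴴ * B.H e (e x) * ac t e e' x =
      ((‖(jacF (T.a t) e e' x).det‖ ^ 2 : ℝ) : ℂ) • B.H e' (e' (T.a t x))

variable {T : TorusAct r n Z w} {B : Bun n Z κ}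

/-- pull back of local functions -/
def pullF (E : Eqv T B) (t : Fin r → ℝ) (u : Chart n Z → Cm n → κ → ℂ) :
    Chart n Z → Cm n → κ → ℂ := fun e z =>
  E.ac t e (chartAt (Cm n) (T.a t (e.symm z))) (e.symm z) *ᵥ
    u (chartAt (Cm n) (T.a t (e.symm z)))
      (chartAt (Cm n) (T.a t (e.symm z)) (T.a t (e.symm z)))

theorem at_chart (x : Z) : At (chartAt (Cm n) x) x := ⟨chart_mem_atlas _ _, mem_chart_source _ _⟩

theorem pullF_at (E : Eqv T B) {t : Fin r → ℝ} {u : Chart n Z → Cm n → κ → ℂ} (hu : B.IsSec u)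
    {e e' : Chart n Z} {x : Z} (h : At e x) (h' : At e' (T.a t x)) :
    pullF E t u e (e x) = E.ac t e e' x *ᵥ u e' (e' (T.a t x)) := by
  unfold pullF
  rw [h.left_inv]
  have h0 := at_chart (n := n) (T.a t x)
  rw [hu.change _ _ _ h0 h', Matrix.mulVec_mulVec, E.right t e _ e' x h h0 h']

theorem ev_at (T : TorusAct r n Z w) {t : Fin r → ℝ} {e e' : Chart n Z} {x : Z} (h : At e x)
    (h' : At e' (T.a t x)) : ∀ᶠ q : (Fin r → ℝ) × Cm n in 𝓝 (t, e x),
      q.2 ∈ e.target ∧ At e (e.symm q.2) ∧ At e' (T.a q.1 (e.symm q.2)) := by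
  have h1 : ∀ᶠ q : (Fin r → ℝ) × Cm n in 𝓝 (t, e x), q.2 ∈ e.target :=
    continuousAt_snd.eventually (e.open_target.mem_nhds h.mem_target)
  have h2 : ∀ᶠ q : (Fin r → ℝ) × Cm n in 𝓝 (t, e x), T.a q.1 (e.symm q.2) ∈ e'.source := by
    refine (H582.act_cont_at T h.mem_target t).eventually_mem (e'.open_source.mem_nhds ?_)
    rw [h.left_inv]
    exact h'.2
  filter_upwards [h1, h2] with q hq1 hq2
  exact ⟨hq1, At.of_target h.1 hq1, ⟨h'.1, hq2⟩⟩

theorem pullF_smooth (E : Eqv T B) {u : Chart n Z → Cm n → κ → ℂ} (hu : B.IsSec u)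
    {t : Fin r → ℝ} {e : Chart n Z} {x : Z} (h : At e x) (i : κ) :
    ContDiffAt ℝ ∞ (fun q : (Fin r → ℝ) × Cm n => pullF E q.1 u e q.2 i) (t, e x) := by
  set e' := chartAt (Cm n) (T.a t x) with he'
  have h' : At e' (T.a t x) := at_chart _
  have h1 : ContDiffAt ℝ ∞ (fun q : (Fin r → ℝ) × Cm n =>
      (E.ac q.1 e e' (e.symm q.2) *ᵥ u e' (e' (T.a q.1 (e.symm q.2)))) i) (t, e x) := by
    simp only [Matrix.mulVec, dotProduct]
    refine ContDiffAt.sum fun j _ => (E.smooth t e e' x h h' i j).mul ?_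
    have h2 := T.smooth t x e e' h h'
    have h3 : ContDiffAt ℝ ∞ (fun z => u e' z j) (e' (T.a t (e.symm (e x)))) := by
      rw [h.left_inv]
      exact hu.smooth e' _ h' j
    exact h3.comp (t, e x) (f := fun q : (Fin r → ℝ) × Cm n => e' (T.a q.1 (e.symm q.2))) h2
  refine h1.congr_of_eventuallyEq ?_
  filter_upwards [ev_at T h h'] with q hq
  have h4 := pullF_at E hu hq.2.1 hq.2.2
  rw [e.right_inv hq.1] at h4
  rw [h4]

theorem pullF_change (E : Eqv T B) {u : Chart n Z → Cm n → κ → ℂ} (hu : B.IsSec u)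
    {t : Fin r → ℝ} {e e₁ : Chart n Z} {x : Z} (h : At e x) (h₁ : At e₁ x) :
    pullF E t u e (e x) = B.tr e e₁ x *ᵥ pullF E t u e₁ (e₁ x) := by
  have h' := at_chart (n := n) (T.a t x)
  rw [pullF_at E hu h h', pullF_at E hu h₁ h', Matrix.mulVec_mulVec, E.left t e e₁ _ x h h₁ h']

theorem pullF_isSec (E : Eqv T B) {u : Chart n Z → Cm n → κ → ℂ} (hu : B.IsSec u)
    (t : Fin r → ℝ) : B.IsSec (pullF E t u) where
  smooth e x h i := by
    have h1 := pullF_smooth E hu (t := t) h i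
    exact h1.comp (e x) (f := fun z : Cm n => (t, z)) (contDiffAt_const.prodMk contDiffAt_id)
  change _ _ _ h h' := pullF_change E hu h h'

/-- **Pull back of smooth sections by `a_t`.** -/
def P (E : Eqv T B) (t : Fin r → ℝ) : B.S →ₗ[ℂ] B.S where
  toFun s := Bun.mkS (pullF E t s.f) (pullF_isSec E s.isSec t)
  map_add' s s' := by
    refine Bun.S.ext_f fun e x h => ?_
    show Bun.cut (pullF E t (s.f + s'.f)) e (e x) =
      Bun.cut (pullF E t s.f) e (e x) + Bun.cut (pullF E t s'.f) e (e x)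
    rw [Bun.cut_at h, Bun.cut_at h, Bun.cut_at h]
    unfold pullF
    rw [Pi.add_apply, Pi.add_apply, Matrix.mulVec_add]
  map_smul' c s := by
    refine Bun.S.ext_f fun e x h => ?_
    show Bun.cut (pullF E t (c • s.f)) e (e x) = c • Bun.cut (pullF E t s.f) e (e x)
    rw [Bun.cut_at h, Bun.cut_at h]
    unfold pullF
    rw [Pi.smul_apply, Pi.smul_apply, Matrix.mulVec_smul]

theorem P_eq (E : Eqv T B) (t : Fin r → ℝ) (s : B.S) {e : Chart n Z} {x : Z} (h : At e x) :
    (P E t s).f e (e x) = pullF E t s.f e (e x) := Bun.cut_at h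

theorem P_at (E : Eqv T B) (t : Fin r → ℝ) (s : B.S) {e e' : Chart n Z} {x : Z} (h : At e x)
    (h' : At e' (T.a t x)) :
    (P E t s).f e (e x) = E.ac t e e' x *ᵥ s.f e' (e' (T.a t x)) := by
  rw [P_eq E t s h, pullF_at E s.isSec h h']

theorem P_zero (E : Eqv T B) (s : B.S) : P E 0 s = s := by
  refine Bun.S.ext_f fun e x h => ?_
  rw [P_at E 0 s h (e' := e) (by rw [T.zero]; exact h), E.zero e x h, Matrix.one_mulVec, T.zero]

theorem P_P (E : Eqv T B) (t u : Fin r → ℝ) (s : B.S) : P E t (P E u s) = P E (t + u) s := by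
  refine Bun.S.ext_f fun e x h => ?_
  have h' := at_chart (n := n) (T.a t x)
  have h'' := at_chart (n := n) (T.a u (T.a t x))
  have h3 : T.a (t + u) x = T.a u (T.a t x) := by rw [add_comm, T.add]
  rw [P_at E t _ h h', P_at E u s h' h'', Matrix.mulVec_mulVec, E.add t u e _ _ x h h' h'',
    P_at E (t + u) s h (by rw [h3]; exact h''), h3]

theorem P_comm (E : Eqv T B) (t u : Fin r → ℝ) (s : B.S) :
    P E t (P E u s) = P E u (P E t s) := by rw [P_P, P_P, add_comm]

theorem P_zv (E : Eqv T B) (k : Fin r → ℤ) (s : B.S) : P E (Kir.zv k) s = s := by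
  refine Bun.S.ext_f fun e x h => ?_
  have h1 : T.a (Kir.zv k) x = x := T.per k x
  rw [P_at E _ s h (e' := e) (by rw [h1]; exact h), h1]
  have h2 := E.per k e x h
  unfold Kir.zv
  rw [h2, Matrix.one_mulVec]

theorem P_per (E : Eqv T B) (s : B.S) : Kir.Per fun t => P E t s := by
  intro k t
  simp only
  rw [← P_P, P_zv]

section inner

variable [IsManifold 𝓘(ℂ, Cm n) ω Z] [T2Space Z] [CompactSpace Z]

theorem den_pull (E : Eqv T B) (t : Fin r → ℝ) (s s' : B.S) {e e' : Chart n Z} {x : Z}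
    (h : At e x) (h' : At e' (T.a t x)) :
    B.den (P E t s).f (P E t s').f e (e x) = B.den s.f s'.f e' (e' (T.a t x)) *
      ((‖(jacF (T.a t) e e' x).det‖ ^ 2 : ℝ) : ℂ) := by
  unfold Bun.den
  rw [P_at E t s h h', P_at E t s' h h', Matrix.star_mulVec, Matrix.mulVec_mulVec,
    ← Matrix.dotProduct_mulVec, Matrix.mulVec_mulVec, ← Matrix.mul_assoc,
    E.isom t e e' x h h', Matrix.smul_mulVec, dotProduct_smul, smul_eq_mul, mul_comm]

/-- the pull back is unitary -/
theorem P_inner (E : Eqv T B) (t : Fin r → ℝ) (s s' : B.S) :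
    inner ℂ (P E t s) (P E t s') = inner ℂ s s' := by
  rw [Bun.inner_eq, Bun.inner_eq]
  have hd := Bun.isDen (B := B) s.isSec s'.isSec
  have hd' := Bun.isDen (B := B) (P E t s).isSec (P E t s').isSec
  apply Complex.ext
  · rw [intC_re, intC_re]
    refine intX_pull (homeo T t) (T.hol t) hd.re hd'.re fun e e' x h h' => ?_
    rw [den_pull E t s s' h h', Complex.re_mul_ofReal]
    rfl
  · rw [intC_im, intC_im]
    refine intX_pull (homeo T t) (T.hol t) hd.im hd'.im fun e e' x h h' => ?_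
    rw [den_pull E t s s' h h', Complex.im_mul_ofReal]
    rfl

end inner

end Vale.Agent.P299.H800.IX
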