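import Vale.Agent.P299.H800.IX.Act

/-!
# The average of a section over the torus: a symmetric projection
-/

open scoped Manifold ContDiff ComplexOrder Topology Matrix ComplexConjugate
open MeasureTheory Set Filter
open Vale.Agent.P272.K Vale.Agent.P272.K.INT Vale.Agent.P299.D Vale.Agent.P299.IX

set_option linter.unusedSectionVars false

noncomputable section

namespace Vale.Agent.P299.H800.IX

variable {r n : ℕ} {Z : Type} [TopologicalSpace Z] [ChartedSpace (Cm n) Z]
  {w : FormM n Z} {κ : Type*} [Fintype κ] [DecidableEq κ]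
  {T : TorusAct r n Z w} {B : Bun n Z κ}

theorem pullF_contDiffAt (E : Eqv T B) {u : Chart n Z → Cm n → κ → ℂ} (hu : B.IsSec u)
    {e : Chart n Z} (he : e ∈ atlas (Cm n) Z) (q : (Fin r → ℝ) × Cm n) (hq : q.2 ∈ e.target) :
    ContDiffAt ℝ ∞ (fun q : (Fin r → ℝ) × Cm n => pullF E q.1 u e q.2) q := by
  rw [contDiffAt_pi]
  intro i
  have h1 := pullF_smooth E hu (t := q.1) (e := e) (x := e.symm q.2) (At.of_target he hq) i
  rwa [e.right_inv hq] at h1

theorem pullF_contDiffOn (E : Eqv T B) {u : Chart n Z → Cm n → κ → ℂ} (hu : B.IsSec u)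
    {e : Chart n Z} (he : e ∈ atlas (Cm n) Z) :
    ContDiffOn ℝ ∞ (fun q : (Fin r → ℝ) × Cm n => pullF E q.1 u e q.2) (univ ×ˢ e.target) :=
  fun q hq => (pullF_contDiffAt E hu he q hq.2).contDiffWithinAt

theorem pullF_cont (E : Eqv T B) {u : Chart n Z → Cm n → κ → ℂ} (hu : B.IsSec u)
    {e : Chart n Z} {x : Z} (h : At e x) : Continuous fun t => pullF E t u e (e x) := by
  rw [continuous_iff_continuousAt]
  intro t
  exact (pullF_contDiffAt E hu h.1 (t, e x) h.mem_target).continuousAt.comp
    (f := fun t : Fin r → ℝ => (t, e x)) (by fun_prop)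

theorem int_cube {E : Type*} [NormedAddCommGroup E] {f : (Fin r → ℝ) → E}
    (hf : Continuous f) (a : Fin r → ℝ) : IntegrableOn f (Kir.cube a) :=
  (hf.continuousOn.integrableOn_compact isCompact_Icc).mono_set (Kir.cube_subset a)

theorem volume_cube (a : Fin r → ℝ) : volume (Kir.cube a) = 1 := by
  have h1 : Kir.cube a = Set.pi univ fun i => Ioc (a i) (a i + 1) := by
    ext x
    simp [Kir.cube]
  rw [h1, volume_pi_pi]
  simp

/-- the average of local functions -/
def avF (E : Eqv T B) (u : Chart n Z → Cm n → κ → ℂ) : Chart n Z → Cm n → κ → ℂ := fun e z =>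
  ∫ t in Kir.cube (0 : Fin r → ℝ), pullF E t u e z

theorem mulVec_integral {ι : Type*} [Fintype ι] (M : Matrix ι κ ℂ) {f : (Fin r → ℝ) → κ → ℂ}
    (hf : Continuous f) (a : Fin r → ℝ) :
    M *ᵥ (∫ t in Kir.cube a, f t) = ∫ t in Kir.cube a, M *ᵥ f t := by
  have h1 := (LinearMap.toContinuousLinearMap (Matrix.mulVecLin M)).integral_comp_comm
    (int_cube hf a)
  simpa using h1.symm

theorem avF_isSec (E : Eqv T B) {u : Chart n Z → Cm n → κ → ℂ} (hu : B.IsSec u) :
    B.IsSec (avF E u) where
  smooth e x h i := by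
    have h1 := (Kir.integral_cube_param e.open_target (pullF_contDiffOn E hu h.1)
      (0 : Fin r → ℝ)).contDiffAt (e.open_target.mem_nhds h.mem_target)
    exact (contDiffAt_pi.1 h1) i
  change e e' x h h' := by
    unfold avF
    rw [mulVec_integral _ (pullF_cont E hu h')]
    refine integral_congr_ae (Eventually.of_forall fun t => ?_)
    exact pullF_change E hu h h'

/-- the average of a section -/
def A (E : Eqv T B) : B.S →ₗ[ℂ] B.S where
  toFun s := Bun.mkS (avF E s.f) (avF_isSec E s.isSec)
  map_add' s s' := by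
    refine Bun.S.ext_f fun e x h => ?_
    show Bun.cut (avF E (s + s').f) e (e x) = Bun.cut (avF E s.f) e (e x) +
      Bun.cut (avF E s'.f) e (e x)
    rw [Bun.cut_at h, Bun.cut_at h, Bun.cut_at h]
    unfold avF
    rw [← integral_add (int_cube (pullF_cont E s.isSec h) 0) (int_cube (pullF_cont E s'.isSec h) 0)]
    refine integral_congr_ae (Eventually.of_forall fun t => ?_)
    show pullF E t (s + s').f e (e x) = pullF E t s.f e (e x) + pullF E t s'.f e (e x)
    rw [← P_eq E t _ h, ← P_eq E t _ h, ← P_eq E t _ h, map_add]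
    rfl
  map_smul' c s := by
    refine Bun.S.ext_f fun e x h => ?_
    show Bun.cut (avF E (c • s).f) e (e x) = c • Bun.cut (avF E s.f) e (e x)
    rw [Bun.cut_at h, Bun.cut_at h]
    unfold avF
    rw [← integral_smul]
    refine integral_congr_ae (Eventually.of_forall fun t => ?_)
    show pullF E t (c • s).f e (e x) = c • pullF E t s.f e (e x)
    rw [← P_eq E t _ h, ← P_eq E t _ h, map_smul]
    rfl

theorem P_cont (E : Eqv T B) (s : B.S) {e : Chart n Z} {x : Z} (h : At e x) :
    Continuous fun t => (P E t s).f e (e x) := by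
  simp only [P_eq E _ s h]
  exact pullF_cont E s.isSec h

theorem A_at (E : Eqv T B) (s : B.S) {e : Chart n Z} {x : Z} (h : At e x) :
    (A E s).f e (e x) = ∫ t in Kir.cube (0 : Fin r → ℝ), (P E t s).f e (e x) := by
  simp only [P_eq E _ s h]
  exact Bun.cut_at h

theorem A_P (E : Eqv T B) (u : Fin r → ℝ) (s : B.S) : A E (P E u s) = A E s := by
  refine Bun.S.ext_f fun e x h => ?_
  rw [A_at E _ h, A_at E _ h]
  simp only [P_P]
  have h1 : Kir.Per fun t => (P E t s).f e (e x) := by
    intro k t
    simp only [P_per E s k t]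
  exact Kir.integral_cube_shift h1 0 u

theorem P_A (E : Eqv T B) (u : Fin r → ℝ) (s : B.S) : P E u (A E s) = A E s := by
  refine Bun.S.ext_f fun e x h => ?_
  have h' := at_chart (n := n) (T.a u x)
  rw [P_at E u _ h h', A_at E s h', mulVec_integral _ (P_cont E s h')]
  have h1 : ∀ t, E.ac u e (chartAt (Cm n) (T.a u x)) x *ᵥ
      (P E t s).f (chartAt (Cm n) (T.a u x)) (chartAt (Cm n) (T.a u x) (T.a u x)) =
      (P E t (P E u s)).f e (e x) := fun t => by
    rw [P_comm, P_at E u _ h h']
  simp only [h1]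
  rw [← A_at E _ h, A_P]

theorem A_of_inv (E : Eqv T B) {s : B.S} (hs : ∀ t, P E t s = s) : A E s = s := by
  refine Bun.S.ext_f fun e x h => ?_
  rw [A_at E s h]
  simp only [hs]
  rw [setIntegral_const, Measure.real, volume_cube]
  simp

theorem A_A (E : Eqv T B) (s : B.S) : A E (A E s) = A E s := A_of_inv E fun t => P_A E t s

theorem A_eq_iff (E : Eqv T B) {s : B.S} : A E s = s ↔ ∀ t, P E t s = s := by
  constructor
  · intro h t
    rw [← h, P_A]
  · exact A_of_inv E

/-- **Averages and operators of first order commuting with the torus.** `D` is given, at every point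
of every chart, by a real linear function of the value and the first derivative. -/
theorem A_comm {κ' : Type*} [Fintype κ'] [DecidableEq κ'] {B' : Bun n Z κ'} (E : Eqv T B)
    (E' : Eqv T B') {D : B.S → B'.S}
    (hD : ∀ e ∈ atlas (Cm n) Z, ∀ z ∈ e.target, ∃ L : ((κ → ℂ) × (Cm n →L[ℝ] (κ → ℂ))) →L[ℝ]
      (κ' → ℂ), ∀ s : B.S, (D s).f e z = L (s.f e z, fderiv ℝ (s.f e) z))
    (hc : ∀ t s, D (P E t s) = P E' t (D s)) (s : B.S) : D (A E s) = A E' (D s) := by
  refine Bun.S.ext_f fun e x h => ?_
  obtain ⟨L, hL⟩ := hD e h.1 (e x) h.mem_target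
  rw [hL, A_at E' _ h]
  simp only [← hc, hL]
  have hcd := pullF_contDiffOn E s.isSec h.1
  have hder := Kir.hasFDerivAt_integral_cube e.open_target hcd (0 : Fin r → ℝ) h.mem_target
  have h1 : (A E s).f e =ᶠ[𝓝 (e x)] fun z => ∫ t in Kir.cube (0 : Fin r → ℝ),
      pullF E t s.f e z := by
    filter_upwards [h.nhds_target] with z hz
    exact Bun.cut_eq h.1 hz
  have h2 : ∀ t, (P E t s).f e =ᶠ[𝓝 (e x)] fun z => pullF E t s.f e z := by
    intro t
    filter_upwards [h.nhds_target] with z hz
    exact Bun.cut_eq h.1 hz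
  have h3 : ∀ t, fderiv ℝ ((P E t s).f e) (e x) = fderiv ℝ (fun z => pullF E t s.f e z) (e x) :=
    fun t => (h2 t).fderiv_eq
  have h4 : fderiv ℝ ((A E s).f e) (e x) = ∫ t in Kir.cube (0 : Fin r → ℝ),
      fderiv ℝ ((P E t s).f e) (e x) := by
    rw [h1.fderiv_eq, hder.fderiv]
    simp only [h3]
  have hc1 : Continuous fun t => fderiv ℝ ((P E t s).f e) (e x) := by
    simp only [h3]
    rw [continuous_iff_continuousAt]
    intro t
    have h5 := pullF_contDiffAt E s.isSec h.1 (t, e x) h.mem_target
    have h6 : ContinuousAt (fun q : (Fin r → ℝ) × Cm n =>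
        fderiv ℝ (fun z => pullF E q.1 s.f e z) q.2) (t, e x) :=
      (ContDiffAt.fderiv (f := fun (q : (Fin r → ℝ) × Cm n) z => pullF E q.1 s.f e z)
        (g := fun q => q.2) (m := 0) (n := ∞) (x₀ := (t, e x))
        (by
          have h7 : ContDiffAt ℝ ∞ (fun p : ((Fin r → ℝ) × Cm n) × Cm n =>
              pullF E p.1.1 s.f e p.2) ((t, e x), e x) :=
            ContDiffAt.comp (g := fun q : (Fin r → ℝ) × Cm n => pullF E q.1 s.f e q.2)
              ((t, e x), e x) (f := fun p : ((Fin r → ℝ) × Cm n) × Cm n => (p.1.1, p.2)) h5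
              (by fun_prop)
          exact h7)
        contDiffAt_snd (by simp)).continuousAt
    exact h6.comp (f := fun t : Fin r → ℝ => (t, e x)) (by fun_prop)
  rw [h4, A_at E s h]
  have hc2 := P_cont E s h
  have hc3 : Continuous fun t => ((P E t s).f e (e x), fderiv ℝ ((P E t s).f e) (e x)) :=
    hc2.prodMk hc1
  have h5 : (∫ t in Kir.cube (0 : Fin r → ℝ), ((P E t s).f e (e x),
      fderiv ℝ ((P E t s).f e) (e x))) = (∫ t in Kir.cube (0 : Fin r → ℝ), (P E t s).f e (e x),
      ∫ t in Kir.cube (0 : Fin r → ℝ), fderiv ℝ ((P E t s).f e) (e x)) :=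
    integral_pair (int_cube hc2 0) (int_cube hc1 0)
  rw [← h5]
  exact (L.integral_comp_comm (int_cube hc3 0)).symm

section inner

variable [IsManifold 𝓘(ℂ, Cm n) ω Z] [T2Space Z] [CompactSpace Z]

theorem den_cont (E : Eqv T B) (s s' : B.S) {e : Chart n Z} (he : e ∈ atlas (Cm n) Z) :
    ContinuousOn (fun q : (Fin r → ℝ) × Cm n => B.den (pullF E q.1 s.f) s'.f e q.2)
      (univ ×ˢ e.target) := by
  unfold Bun.den
  simp only [dotProduct, Matrix.mulVec]
  have hsnd : ContinuousOn (fun q : (Fin r → ℝ) × Cm n => q.2) (univ ×ˢ e.target) :=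
    continuousOn_snd
  refine continuousOn_finsetSum _ fun i _ => ContinuousOn.mul ?_
    (continuousOn_finsetSum _ fun j _ => ContinuousOn.mul ?_ ?_)
  · have h1 : ContinuousOn (fun q : (Fin r → ℝ) × Cm n => pullF E q.1 s.f e q.2 i)
        (univ ×ˢ e.target) :=
      continuousOn_pi.1 (pullF_contDiffOn E s.isSec he).continuousOn i
    exact h1.star
  · have h1 : ContinuousOn (fun z => B.H e z i j) e.target := by
      intro z hz
      have h2 := (B.H_smooth e (e.symm z) (At.of_target he hz) i j).continuousAt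
      rw [e.right_inv hz] at h2
      exact h2.continuousWithinAt
    exact h1.comp hsnd fun q hq => hq.2
  · have h1 : ContinuousOn (fun z => s'.f e z j) e.target := by
      intro z hz
      have h2 := (s'.smooth (At.of_target he hz) j).continuousAt
      rw [e.right_inv hz] at h2
      exact h2.continuousWithinAt
    exact h1.comp hsnd fun q hq => hq.2

theorem A_inner_left (E : Eqv T B) (s s' : B.S) :
    inner ℂ (A E s) s' = ∫ t in Kir.cube (0 : Fin r → ℝ), inner ℂ (P E t s) s' := by
  have hden : ∀ t, ∀ e x, At e x → B.den (P E t s).f s'.f e (e x) =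
      B.den (pullF E t s.f) s'.f e (e x) := by
    intro t e x h
    unfold Bun.den
    rw [P_eq E t s h]
  have hA : ∀ e x, At e x → B.den (A E s).f s'.f e (e x) =
      ∫ t in Kir.cube (0 : Fin r → ℝ), B.den (pullF E t s.f) s'.f e (e x) := by
    intro e x h
    have h1 : (A E s).f e (e x) = avF E s.f e (e x) := Bun.cut_at h
    unfold Bun.den
    rw [h1]
    have hc := pullF_cont E s.isSec h
    -- the conjugate linear functional as a real linear functional
    let ℓ : (κ → ℂ) →L[ℝ] ℂ := LinearMap.toContinuousLinearMap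
      { toFun := fun a => star a ⬝ᵥ (B.H e (e x) *ᵥ s'.f e (e x))
        map_add' := fun a b => by rw [star_add, add_dotProduct]
        map_smul' := fun c a => by
          rw [star_smul, smul_dotProduct]
          simp }
    exact (ℓ.integral_comp_comm (int_cube hc 0)).symm
  have hcd : ∀ e x, At e x → Continuous fun t => B.den (pullF E t s.f) s'.f e (e x) := by
    intro e x h
    exact (den_cont E s s' h.1).comp_continuous (f := fun t : Fin r → ℝ => (t, e x))
      (by fun_prop) fun t => ⟨mem_univ _, h.mem_target⟩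
  have h1 : inner ℂ (A E s) s' = intC fun e z => ∫ t in Kir.cube (0 : Fin r → ℝ),
      B.den (pullF E t s.f) s'.f e z := intC_congr hA
  have h2 : ∀ t, inner ℂ (P E t s) s' = intC (B.den (pullF E t s.f) s'.f) := fun t =>
    intC_congr (hden t)
  have hre : intX (fun e z => (∫ t in Kir.cube (0 : Fin r → ℝ),
      B.den (pullF E t s.f) s'.f e z).re) = ∫ t in Kir.cube (0 : Fin r → ℝ),
      intX fun e z => (B.den (pullF E t s.f) s'.f e z).re := by
    rw [← intX_cube (F := fun t e z => (B.den (pullF E t s.f) s'.f e z).re)]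
    · refine intX_congr fun e x h => ?_
      exact ((Complex.reCLM.integral_comp_comm (int_cube (hcd e x h) 0))).symm
    · exact fun e he => Complex.continuous_re.comp_continuousOn (den_cont E s s' he)
  have him : intX (fun e z => (∫ t in Kir.cube (0 : Fin r → ℝ),
      B.den (pullF E t s.f) s'.f e z).im) = ∫ t in Kir.cube (0 : Fin r → ℝ),
      intX fun e z => (B.den (pullF E t s.f) s'.f e z).im := by
    rw [← intX_cube (F := fun t e z => (B.den (pullF E t s.f) s'.f e z).im)]
    · refine intX_congr fun e x h => ?_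
      exact ((Complex.imCLM.integral_comp_comm (int_cube (hcd e x h) 0))).symm
    · exact fun e he => Complex.continuous_im.comp_continuousOn (den_cont E s s' he)
  rw [h1]
  simp only [h2]
  have ire := integrable_intX (F := fun t e z => (B.den (pullF E t s.f) s'.f e z).re)
    (fun e he => Complex.continuous_re.comp_continuousOn (den_cont E s s' he)) (0 : Fin r → ℝ)
  have iim := integrable_intX (F := fun t e z => (B.den (pullF E t s.f) s'.f e z).im)
    (fun e he => Complex.continuous_im.comp_continuousOn (den_cont E s s' he)) (0 : Fin r → ℝ)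
  have e1 : (∫ t in Kir.cube (0 : Fin r → ℝ), intC (B.den (pullF E t s.f) s'.f)) =
      (∫ t in Kir.cube (0 : Fin r → ℝ),
        ((intX fun e z => (B.den (pullF E t s.f) s'.f e z).re : ℝ) : ℂ)) +
      ∫ t in Kir.cube (0 : Fin r → ℝ), Complex.I *
        ((intX fun e z => (B.den (pullF E t s.f) s'.f e z).im : ℝ) : ℂ) :=
    integral_add ire.ofReal (iim.ofReal.const_mul Complex.I)
  rw [e1, integral_const_mul, integral_complex_ofReal, integral_complex_ofReal, ← hre, ← him]
  rfl

/-- **The average is symmetric.** -/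
theorem A_symm (E : Eqv T B) (s s' : B.S) : inner ℂ (A E s) s' = inner ℂ s (A E s') := by
  have key : ∀ s s' : B.S, inner ℂ (A E s) (A E s') = inner ℂ s (A E s') := by
    intro s s'
    rw [A_inner_left]
    have h1 : ∀ t, inner ℂ (P E t s) (A E s') = inner ℂ s (A E s') := by
      intro t
      rw [← P_A E t s', P_inner, P_A]
    simp only [h1]
    rw [setIntegral_const, Measure.real, volume_cube]
    simp
  rw [← key s s', ← inner_conj_symm (A E s) s', ← key s' s, inner_conj_symm]

end inner

end Vale.Agent.P299.H800.IX
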