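import Vale.Agent.P299.H800.Kir.Four
import Vale.Agent.P299.H800.Kir.Sec
import Vale.Agent.P272.K.INT.Global

/-!
# Integration of densities: biholomorphic maps, exchange with the integral over the torus
-/

open scoped Manifold ContDiff ComplexOrder Topology
open MeasureTheory Set Filter
open Vale.Agent.P272.K Vale.Agent.P272.K.INT Vale.Agent.P299.D

set_option linter.unusedSectionVars false

noncomputable section

namespace Vale.Agent.P299.H800.IX

variable {n : ℕ} {X : Type*} [TopologicalSpace X] [ChartedSpace (Cm n) X]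
  [IsManifold 𝓘(ℂ, Cm n) ω X]

/-- change of variables by a biholomorphic map, in charts -/
theorem integral_pull {D D' : Chart n X → Cm n → ℝ} (G : X ≃ₜ X)
    (hG : ContMDiff 𝓘(ℂ, Cm n) 𝓘(ℂ, Cm n) ω G)
    (hD : ∀ e e' x, At e x → At e' (G x) →
      D' e (e x) = D e' (e' (G x)) * ‖(jacF G e e' x).det‖ ^ 2)
    {e e' : Chart n X} (he : e ∈ atlas (Cm n) X) (he' : e' ∈ atlas (Cm n) X) {f : X → ℝ}
    (h1 : ∀ y ∈ e'.source, G.symm y ∉ e.source → f y = 0)
    (h2 : ∀ x ∈ e.source, G x ∉ e'.source → f (G x) = 0) :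
    ∫ z in e.target, f (G (e.symm z)) * D' e z = ∫ z in e'.target, f (e'.symm z) * D e' z := by
  set S := e.symm ≫ₕ (G.toOpenPartialHomeomorph ≫ₕ e') with hS
  have hsrc : S.source = e.target ∩ (fun z => G (e.symm z)) ⁻¹' e'.source := by
    rw [hS, OpenPartialHomeomorph.trans_source, OpenPartialHomeomorph.trans_source]
    ext z
    simp
  have htgt : S.target = e'.target ∩ (fun z => G.symm (e'.symm z)) ⁻¹' e.source := by
    rw [hS, OpenPartialHomeomorph.trans_target, OpenPartialHomeomorph.trans_target]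
    ext z
    simp
  have hSz : ∀ z, S z = e' (G (e.symm z)) := fun z => rfl
  have e1 : ∫ z in e.target, f (G (e.symm z)) * D' e z =
      ∫ z in S.source, f (G (e.symm z)) * D' e z := by
    apply setIntegral_eq_of_subset_of_forall_sdiff_eq_zero e.open_target.measurableSet
    · rw [hsrc]; exact inter_subset_left
    · intro z hz
      have h3 : G (e.symm z) ∉ e'.source := fun h => hz.2 (by rw [hsrc]; exact ⟨hz.1, h⟩)
      rw [h2 _ (e.map_target hz.1) h3, zero_mul]
  have e2 : ∫ z in e'.target, f (e'.symm z) * D e' z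
      = ∫ z in S.target, f (e'.symm z) * D e' z := by
    apply setIntegral_eq_of_subset_of_forall_sdiff_eq_zero e'.open_target.measurableSet
    · rw [htgt]; exact inter_subset_left
    · intro z hz
      have h3 : G.symm (e'.symm z) ∉ e.source := fun h => hz.2 (by rw [htgt]; exact ⟨hz.1, h⟩)
      rw [h1 _ (e'.map_target hz.1) h3, zero_mul]
  have e3 : (S : Cm n → Cm n) '' S.source = S.target := S.image_source_eq_target
  have hdiff : ∀ z ∈ S.source, DifferentiableAt ℂ (fun z => e' (G (e.symm z))) z := by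
    intro z hz
    rw [hsrc] at hz
    have h3 := H720.rep_differentiableAt hG.contMDiffAt (x := e.symm z)
      ⟨he, e.map_target hz.1⟩ (e' := e') ⟨he', hz.2⟩
    rwa [e.right_inv hz.1] at h3
  have hd : ∀ z ∈ S.source, HasFDerivWithinAt S (fderiv ℝ (fun z => e' (G (e.symm z))) z)
      S.source z := by
    intro z hz
    exact ((hdiff z hz).restrictScalars ℝ).hasFDerivAt.hasFDerivWithinAt
  rw [e1, e2, ← e3, integral_image_eq_integral_abs_det_fderiv_smul volume
    S.open_source.measurableSet hd S.injOn]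
  apply setIntegral_congr_fun S.open_source.measurableSet
  intro z hz
  have hz' := hz
  rw [hsrc] at hz
  have hx : At e (e.symm z) := ⟨he, e.map_target hz.1⟩
  have hx' : At e' (G (e.symm z)) := ⟨he', hz.2⟩
  have hdet : (fderiv ℝ (fun z => e' (G (e.symm z))) z).det =
      ‖(jacF G e e' (e.symm z)).det‖ ^ 2 := by
    rw [det_fderiv_real (hdiff z hz'), H720.jacF_eq, e.right_inv hz.1]
    rfl
  have hch := hD e e' (e.symm z) hx hx'
  rw [e.right_inv hz.1] at hch
  simp only [smul_eq_mul]
  rw [hdet, hSz, e'.left_inv hz.2, hch, abs_of_nonneg (by positivity)]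
  ring

variable [T2Space X] [CompactSpace X]

/-- **Invariance of the integral under biholomorphic maps** -/
theorem intX_pull {D D' : Chart n X → Cm n → ℝ} (G : X ≃ₜ X)
    (hG : ContMDiff 𝓘(ℂ, Cm n) 𝓘(ℂ, Cm n) ω G) (hDd : IsDensity D) (hDd' : IsDensity D')
    (hD : ∀ e e' x, At e x → At e' (G x) →
      D' e (e x) = D e' (e' (G x)) * ‖(jacF G e e' x).det‖ ^ 2) :
    intX D' = intX D := by
  set P := part n X with hP
  have key : ∀ i, ∫ z in (P.e i).target, P.ρ i ((P.e i).symm z) * D (P.e i) z =
      ∑ j, ∫ z in (P.e i).target, (P.ρ i ((P.e i).symm z) *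
        P.ρ j (G.symm ((P.e i).symm z))) * D (P.e i) z := by
    intro i
    rw [← integral_finsetSum]
    · congr 1
      ext z
      rw [← Finset.sum_mul, ← Finset.mul_sum, P.sum, mul_one]
    · intro j _
      refine integrableOn_dens (f := fun x => P.ρ i x * P.ρ j (G.symm x)) hDd (P.mem i) ?_ ?_
      · exact (P.cont i).mul ((P.cont j).comp G.symm.continuous)
      · exact tsupport_mul_subset_left'.trans (P.supp i)
  have key' : ∀ j, ∫ z in (P.e j).target, P.ρ j ((P.e j).symm z) * D' (P.e j) z =
      ∑ i, ∫ z in (P.e j).target, (P.ρ i (G ((P.e j).symm z)) *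
        P.ρ j ((P.e j).symm z)) * D' (P.e j) z := by
    intro j
    rw [← integral_finsetSum]
    · congr 1
      ext z
      rw [← Finset.sum_mul, ← Finset.sum_mul, P.sum, one_mul]
    · intro i _
      refine integrableOn_dens (f := fun x => P.ρ i (G x) * P.ρ j x) hDd' (P.mem j) ?_ ?_
      · exact ((P.cont i).comp G.continuous).mul (P.cont j)
      · exact tsupport_mul_subset_right'.trans (P.supp j)
  unfold intX
  rw [← hP, Finset.sum_congr rfl fun i _ => key' i, Finset.sum_congr rfl fun j _ => key j,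
    Finset.sum_comm]
  refine Finset.sum_congr rfl fun i _ => Finset.sum_congr rfl fun j _ => ?_
  have h3 := integral_pull (f := fun x => P.ρ i x * P.ρ j (G.symm x)) G hG hD (P.mem j) (P.mem i)
    ?_ ?_
  · simp only [Homeomorph.symm_apply_apply] at h3
    exact h3
  · intro y _ hy
    rw [image_eq_zero_of_notMem_tsupport (fun h => hy (P.supp j h)), mul_zero]
  · intro x _ hx
    rw [image_eq_zero_of_notMem_tsupport (fun h => hx (P.supp i h)), zero_mul]

theorem integrable_piece {r : ℕ} {F : (Fin r → ℝ) → Chart n X → Cm n → ℝ}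
    (hF : ∀ e ∈ atlas (Cm n) X, ContinuousOn (fun q : (Fin r → ℝ) × Cm n => F q.1 e q.2)
      (univ ×ˢ e.target)) (a : Fin r → ℝ) (P : Part n X) (i : Fin P.N) :
    Integrable (fun q : (Fin r → ℝ) × Cm n =>
      P.ρ i ((P.e i).symm q.2) * F q.1 (P.e i) q.2)
      ((volume.restrict (Kir.cube a)).prod (volume.restrict (P.e i).target)) := by
  have hKe : tsupport (P.ρ i) ⊆ (P.e i).source := P.supp i
  have hc : IsCompact (P.e i '' tsupport (P.ρ i)) :=
    (isClosed_tsupport _).isCompact.image_of_continuousOn ((P.e i).continuousOn.mono hKe)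
  have hsub : P.e i '' tsupport (P.ρ i) ⊆ (P.e i).target := by
    rintro _ ⟨x, hx, rfl⟩; exact (P.e i).map_source (hKe hx)
  have hcont : ContinuousOn (fun q : (Fin r → ℝ) × Cm n =>
      P.ρ i ((P.e i).symm q.2) * F q.1 (P.e i) q.2) (univ ×ˢ (P.e i).target) := by
    refine ContinuousOn.mul ?_ (hF _ (P.mem i))
    refine (P.cont i).comp_continuousOn ((P.e i).continuousOn_symm.comp continuousOn_snd ?_)
    exact fun q hq => hq.2
  rw [Measure.prod_restrict]
  have h1 : IntegrableOn (fun q : (Fin r → ℝ) × Cm n =>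
      P.ρ i ((P.e i).symm q.2) * F q.1 (P.e i) q.2)
      (Icc a (a + 1) ×ˢ (P.e i '' tsupport (P.ρ i))) (volume.prod volume) :=
    (hcont.mono (prod_mono (subset_univ _) hsub)).integrableOn_compact (isCompact_Icc.prod hc)
  have h2 : IntegrableOn (fun q : (Fin r → ℝ) × Cm n =>
      P.ρ i ((P.e i).symm q.2) * F q.1 (P.e i) q.2)
      (Kir.cube a ×ˢ (P.e i '' tsupport (P.ρ i))) (volume.prod volume) :=
    h1.mono_set (prod_mono (Kir.cube_subset a) subset_rfl)
  refine h2.of_forall_sdiff_eq_zero ((Kir.cube_measurable a).prod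
    (P.e i).open_target.measurableSet) fun q hq => ?_
  have h3 : (P.e i).symm q.2 ∉ tsupport (P.ρ i) := by
    intro h
    exact hq.2 ⟨hq.1.1, _, h, (P.e i).right_inv hq.1.2⟩
  rw [image_eq_zero_of_notMem_tsupport h3, zero_mul]

theorem integrable_intX {r : ℕ} {F : (Fin r → ℝ) → Chart n X → Cm n → ℝ}
    (hF : ∀ e ∈ atlas (Cm n) X, ContinuousOn (fun q : (Fin r → ℝ) × Cm n => F q.1 e q.2)
      (univ ×ˢ e.target)) (a : Fin r → ℝ) :
    IntegrableOn (fun t => intX (F t)) (Kir.cube a) := by
  unfold intX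
  exact integrable_finsetSum _ fun i _ =>
    (integrable_piece hF a (part n X) i).integral_prod_left

/-- **Fubini**: the integral over `X` of an integral over the cube -/
theorem intX_cube {r : ℕ} {F : (Fin r → ℝ) → Chart n X → Cm n → ℝ}
    (hF : ∀ e ∈ atlas (Cm n) X, ContinuousOn (fun q : (Fin r → ℝ) × Cm n => F q.1 e q.2)
      (univ ×ˢ e.target)) (a : Fin r → ℝ) :
    intX (fun e z => ∫ t in Kir.cube a, F t e z) = ∫ t in Kir.cube a, intX (F t) := by
  set P := part n X with hP
  have hint := integrable_piece hF a P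
  unfold intX
  rw [← hP, integral_finsetSum]
  · refine Finset.sum_congr rfl fun i _ => ?_
    have h1 : ∀ z, P.ρ i ((P.e i).symm z) * ∫ t in Kir.cube a, F t (P.e i) z =
        ∫ t in Kir.cube a, P.ρ i ((P.e i).symm z) * F t (P.e i) z := fun z =>
      (integral_const_mul _ _).symm
    simp only [h1]
    exact (integral_integral_swap (hint i)).symm
  · intro i _
    exact (hint i).integral_prod_left

end Vale.Agent.P299.H800.IX
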